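import Vale.Agent.P183KG.Bridge

/-!
A finite lattice that is no interval in the subgroup lattice of a finite group whose simple sections
are on the list of the classification of finite simple groups.
-/

namespace Vale.Agent.Results.P183.KnownGroups

open Vale.Agent.P183 Vale.Agent.P183KG Vale.Agent.P183PK

theorem result :
    ∃ d : ℕ, ∀ c : ℕ, ∃ (L : Type) (_ : Lattice L) (_ : Finite L) (_ : Nonempty L),
      -- (1) `L` is no interval `[H, G]` of a finite group all of whose simple sections are listed
      (∀ (G : Type) [Group G] [Finite G] (H : Subgroup G), KGroup d c G →
        IsEmpty (L ≃o {K : Subgroup G // H ≤ K})) ∧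
      -- (2) `L` is not the congruence lattice of a finite algebra all of whose groups of unary
      -- polynomial operations have this property
      (∀ A : FiniteAlgebra, (∀ (G : Type) [Group G], PolGroup A G → KGroup d c G) →
        IsEmpty (L ≃o A.Con)) ∧
      -- (3) if all finite nonabelian simple groups are listed, `L` is not representable
      ((∀ (S : Type) [Group S] [Finite S], IsSimpleGroup S → (∃ a b : S, a * b ≠ b * a) →
        Listed d c S) → ¬ Representable L) :=
  main

end Vale.Agent.Results.P183.KnownGroups
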